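import Vale.Agent.P004H.H361.BDef
import Vale.Agent.P004H.H361.Loc

/-!
# P004H, R14: `bb` at `p^j l`
-/

open Finset

namespace Vale.Agent.P004H.H361

/-- `λ(k)²` -/
noncomputable def ff (a : ℕ → ℤ) (k : ℕ) : ℝ := (a k : ℝ) ^ 2 / (k : ℝ)

/-- the `n` with `n² ∣ k` -/
def sqd (k : ℕ) : Finset ℕ := (Icc 1 k).filter (fun n => n ^ 2 ∣ k)

theorem mem_sqd {k n : ℕ} (hk : k ≠ 0) : n ∈ sqd k ↔ n ^ 2 ∣ k := by
  unfold sqd
  rw [mem_filter, mem_Icc]
  refine ⟨fun h => h.2, fun h => ⟨⟨?_, ?_⟩, h⟩⟩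
  · rcases Nat.eq_zero_or_pos n with h0 | h0
    · rw [h0, zero_pow (by norm_num)] at h
      exact absurd (Nat.eq_zero_of_zero_dvd h) hk
    · exact h0
  · have h1 := Nat.le_of_dvd (Nat.pos_of_ne_zero hk) h
    nlinarith [Nat.le_self_pow (two_ne_zero) n]

/-- the sum without the condition at `11` -/
noncomputable def ss (a : ℕ → ℤ) (k : ℕ) : ℝ := ∑ n ∈ sqd k, ff a (k / n ^ 2)

theorem bb_eq (a : ℕ → ℤ) (k : ℕ) : bb a k = if k.Coprime 11 then ss a k else 0 := rfl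

theorem bb_nonneg (a : ℕ → ℤ) (k : ℕ) : 0 ≤ bb a k := by
  rw [bb_eq]
  split_ifs
  · exact sum_nonneg fun n _ => div_nonneg (sq_nonneg _) (Nat.cast_nonneg _)
  · exact le_rfl

/-- `λ(p^i)` -/
noncomputable def uu (a : ℕ → ℤ) (p i : ℕ) : ℝ := (a (p ^ i) : ℝ) / √(p : ℝ) ^ i

/-- `α^m + ᾱ^m` -/
noncomputable def vv (a : ℕ → ℤ) (p m : ℕ) : ℝ :=
  2 * Real.cos (m * Real.arccos ((a p : ℝ) / √(p : ℝ) / 2))

theorem uu_sq (a : ℕ → ℤ) (p i : ℕ) : uu a p i ^ 2 = ff a (p ^ i) := by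
  unfold uu ff
  rw [div_pow, ← pow_mul, mul_comm i 2, pow_mul, Real.sq_sqrt (Nat.cast_nonneg _)]
  push_cast
  rfl

theorem vv_sq_le (a : ℕ → ℤ) (p m : ℕ) : vv a p m ^ 2 ≤ 4 := by
  unfold vv
  have h := Real.cos_sq_le_one (m * Real.arccos ((a p : ℝ) / √(p : ℝ) / 2))
  nlinarith

variable {a : ℕ → ℤ} (hr : Rel a) {p : ℕ} (hp : p.Prime) (h11 : p ≠ 11)
include hr hp h11

theorem lam_le : |(a p : ℝ) / √(p : ℝ)| ≤ 2 := by
  have h1 := hr.hasse p hp h11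
  have hp0 : (0 : ℝ) < p := by exact_mod_cast hp.pos
  have h2 : ((a p : ℝ) / √(p : ℝ)) ^ 2 ≤ 2 ^ 2 := by
    rw [div_pow, Real.sq_sqrt hp0.le, div_le_iff₀ hp0]
    have : ((a p : ℝ)) ^ 2 ≤ 4 * p := by exact_mod_cast h1
    linarith
  exact abs_le_of_sq_le_sq h2 (by norm_num)

omit hr hp h11 in
theorem vv_zero : vv a p 0 = 2 := by simp [vv]

theorem vv_one : vv a p 1 = (a p : ℝ) / √(p : ℝ) := by
  have h := abs_le.1 (lam_le hr hp h11)
  unfold vv
  rw [Nat.cast_one, one_mul, Real.cos_arccos (by linarith) (by linarith)]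
  ring

theorem vv_rec (k : ℕ) : vv a p (k + 2) = (a p : ℝ) / √(p : ℝ) * vv a p (k + 1) - vv a p k := by
  have h1 := vv_one hr hp h11
  rw [← h1]
  unfold vv
  set t := Real.arccos ((a p : ℝ) / √(p : ℝ) / 2)
  push_cast
  have e1 : ((k : ℝ) + 2) * t = ((k : ℝ) + 1) * t + t := by ring
  have e2 : (k : ℝ) * t = ((k : ℝ) + 1) * t - t := by ring
  rw [e1, e2, one_mul, Real.cos_add, Real.cos_sub]
  ring

omit hp h11 in
theorem uu_zero : uu a p 0 = 1 := by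
  unfold uu
  rw [pow_zero, pow_zero, hr.one]
  norm_num

omit hr hp h11 in
theorem uu_one : uu a p 1 = (a p : ℝ) / √(p : ℝ) := by
  unfold uu
  rw [pow_one, pow_one]

theorem uu_rec (k : ℕ) : uu a p (k + 2) = (a p : ℝ) / √(p : ℝ) * uu a p (k + 1) - uu a p k := by
  have hp0 : (0 : ℝ) < p := by exact_mod_cast hp.pos
  have hs : 0 < √(p : ℝ) := Real.sqrt_pos.2 hp0
  have h2 : (p : ℝ) = √(p : ℝ) ^ 2 := (Real.sq_sqrt hp0.le).symm
  unfold uu
  rw [hr.hec p hp h11 k]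
  push_cast
  rw [pow_add, pow_add, pow_one]
  set s := √(p : ℝ) with hs'
  rw [h2]
  field_simp
  ring

omit h11 in
/-- the part of the sum with `p ∤ n` -/
theorem sum_not (j : ℕ) {l : ℕ} (hl : ¬ p ∣ l) :
    ∑ n ∈ (sqd (p ^ j * l)).filter (fun n => ¬ p ∣ n), ff a (p ^ j * l / n ^ 2)
      = uu a p j ^ 2 * ss a l := by
  have hl0 : l ≠ 0 := fun h => hl (h ▸ dvd_zero p)
  have hk0 : p ^ j * l ≠ 0 := Nat.mul_ne_zero (pow_ne_zero _ hp.ne_zero) hl0
  have hset : (sqd (p ^ j * l)).filter (fun n => ¬ p ∣ n) = sqd l := by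
    ext n
    rw [mem_filter, mem_sqd hk0, mem_sqd hl0]
    constructor
    · rintro ⟨h1, h2⟩
      have h3 : (n ^ 2).Coprime (p ^ j) :=
        Nat.Coprime.pow _ _ ((Nat.Prime.coprime_iff_not_dvd hp).2 h2).symm
      exact h3.dvd_of_dvd_mul_left h1
    · intro h1
      refine ⟨Dvd.dvd.mul_left h1 _, fun h2 => hl ?_⟩
      exact (Dvd.dvd.trans (Dvd.dvd.trans h2 (dvd_pow_self n two_ne_zero)) h1)
  rw [hset, ss, mul_sum]
  refine sum_congr rfl fun n hn => ?_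
  rw [mem_sqd hl0] at hn
  obtain ⟨w, hw⟩ := hn
  have hn0 : 0 < n ^ 2 := by
    rcases Nat.eq_zero_or_pos (n ^ 2) with h | h
    · rw [h, zero_mul] at hw; exact absurd hw hl0
    · exact h
  have e1 : p ^ j * l / n ^ 2 = p ^ j * w := by
    rw [hw, Nat.mul_left_comm, Nat.mul_div_cancel_left _ hn0]
  have e2 : l / n ^ 2 = w := by rw [hw, Nat.mul_div_cancel_left _ hn0]
  rw [e1, e2, uu_sq]
  have hw1 : ¬ p ∣ w := fun h => hl (hw ▸ Dvd.dvd.mul_left h _)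
  have hc : (p ^ j).Coprime w := Nat.Coprime.pow_left _ ((Nat.Prime.coprime_iff_not_dvd hp).2 hw1)
  unfold ff
  rw [hr.mul _ _ hc]
  push_cast
  rw [mul_pow, mul_div_mul_comm]

omit hr h11 in
/-- the part of the sum with `p ∣ n` -/
theorem sum_dvd {k : ℕ} (hk : k ≠ 0) :
    ∑ n ∈ (sqd (p ^ 2 * k)).filter (fun n => p ∣ n), ff a (p ^ 2 * k / n ^ 2) = ss a k := by
  have hk0 : p ^ 2 * k ≠ 0 := Nat.mul_ne_zero (pow_ne_zero _ hp.ne_zero) hk
  have hset : (sqd (p ^ 2 * k)).filter (fun n => p ∣ n) = (sqd k).image (fun n => p * n) := by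
    ext n
    rw [mem_filter, mem_sqd hk0, mem_image]
    constructor
    · rintro ⟨h1, ⟨m, rfl⟩⟩
      refine ⟨m, ?_, rfl⟩
      rw [mem_sqd hk]
      rw [mul_pow] at h1
      exact Nat.dvd_of_mul_dvd_mul_left (pow_pos hp.pos 2) h1
    · rintro ⟨m, hm, rfl⟩
      rw [mem_sqd hk] at hm
      exact ⟨by rw [mul_pow]; exact Nat.mul_dvd_mul_left _ hm, Dvd.intro m rfl⟩
  rw [hset, sum_image (fun x _ y _ h => Nat.eq_of_mul_eq_mul_left hp.pos h), ss]
  refine sum_congr rfl fun n hn => ?_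
  rw [mul_pow, Nat.mul_div_mul_left _ _ (pow_pos hp.pos 2)]

theorem ss_mul (j : ℕ) {l : ℕ} (hl : ¬ p ∣ l) :
    ss a (p ^ j * l) = bet (uu a p) j * ss a l := by
  have hl0 : l ≠ 0 := fun h => hl (h ▸ dvd_zero p)
  have small : ∀ j, j < 2 → ss a (p ^ j * l) = uu a p j ^ 2 * ss a l := by
    intro j hj
    have hk0 : p ^ j * l ≠ 0 := Nat.mul_ne_zero (pow_ne_zero _ hp.ne_zero) hl0
    rw [← sum_not hr hp j hl, ss]
    rw [Finset.filter_true_of_mem]
    intro n hn hpn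
    rw [mem_sqd hk0] at hn
    have h1 : p ^ 2 ∣ p ^ j * l := Dvd.dvd.trans (pow_dvd_pow_of_dvd hpn 2) hn
    have h2 : p ^ 2 ∣ p ^ j :=
      ((Nat.Coprime.pow_left 2 ((Nat.Prime.coprime_iff_not_dvd hp).2 hl))).dvd_of_dvd_mul_right h1
    have := (Nat.pow_dvd_pow_iff_le_right hp.one_lt).1 h2
    omega
  induction j using Nat.twoStepInduction with
  | zero => exact small 0 (by norm_num)
  | one => exact small 1 (by norm_num)
  | more j ih _ =>
    have hk0 : p ^ j * l ≠ 0 := Nat.mul_ne_zero (pow_ne_zero _ hp.ne_zero) hl0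
    have e : p ^ 2 * (p ^ j * l) = p ^ (j + 2) * l := by rw [pow_add]; ring
    have h1 := sum_dvd (a := a) hp hk0
    have h2 := sum_not hr hp (j + 2) hl
    have h3 := Finset.sum_filter_add_sum_filter_not (sqd (p ^ (j + 2) * l)) (fun n => p ∣ n)
      (fun n => ff a (p ^ (j + 2) * l / n ^ 2))
    rw [e] at h1
    rw [h1, h2] at h3
    have h4 : ss a (p ^ (j + 2) * l)
        = ∑ n ∈ sqd (p ^ (j + 2) * l), ff a (p ^ (j + 2) * l / n ^ 2) := rfl
    have h5 : bet (uu a p) (j + 2) = uu a p (j + 2) ^ 2 + bet (uu a p) j := rfl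
    rw [h4, ← h3, ih, h5]
    ring

theorem bb_mul (j : ℕ) {l : ℕ} (hl : ¬ p ∣ l) :
    bb a (p ^ j * l) = bet (uu a p) j * bb a l := by
  have h : (p ^ j * l).Coprime 11 ↔ l.Coprime 11 := by
    rw [Nat.coprime_mul_iff_left]
    refine ⟨fun h => h.2, fun h => ⟨?_, h⟩⟩
    exact Nat.Coprime.pow_left _ ((Nat.coprime_primes hp (by norm_num)).2 h11)
  rw [bb_eq, bb_eq]
  by_cases hc : l.Coprime 11
  · rw [if_pos hc, if_pos (h.2 hc), ss_mul hr hp h11 j hl]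
  · rw [if_neg hc, if_neg (fun h' => hc (h.1 h')), mul_zero]

/-- **the identity at one prime** -/
theorem bb_local {k : ℕ} (hk : k ≠ 0) :
    (k.factorization p : ℝ) * bb a k
      = ∑ m ∈ Icc 1 (k.factorization p), vv a p m ^ 2 * bb a (k / p ^ m) := by
  set j := k.factorization p with hj
  set l := k / p ^ j with hl'
  have hkl : p ^ j * l = k := Nat.ordProj_mul_ordCompl_eq_self k p
  have hl : ¬ p ∣ l := Nat.not_dvd_ordCompl hp hk
  have h1 := local_id (uu_zero hr) uu_one (uu_rec hr hp h11)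
    (vv_zero (a := a) (p := p)) (vv_one hr hp h11) (vv_rec hr hp h11) j
  have h2 : bb a k = bet (uu a p) j * bb a l := by
    conv_lhs => rw [← hkl]
    exact bb_mul hr hp h11 j hl
  rw [h2, ← mul_assoc, h1, sum_mul]
  refine sum_congr rfl fun m hm => ?_
  rw [mem_Icc] at hm
  have h3 : k / p ^ m = p ^ (j - m) * l := by
    conv_lhs => rw [← hkl]
    have : p ^ j = p ^ m * p ^ (j - m) := by rw [← pow_add]; congr 1; omega
    rw [this, mul_assoc, Nat.mul_div_cancel_left _ (pow_pos hp.pos m)]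
  rw [h3, bb_mul hr hp h11 (j - m) hl, mul_assoc]

end Vale.Agent.P004H.H361
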