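import Vale.Agent.P004H.H361.SumId

/-!
# P004H, R14: `∑_{p ≤ N} λ(p)² log p / p = log N + O(1)`
-/

open Finset

namespace Vale.Agent.P004H.H361

open P004E.H185.Mer

variable {a : ℕ → ℤ}

theorem SS_zero (a : ℕ → ℤ) : SS a 0 = 0 := by simp [SS]

theorem SS_nonneg (a : ℕ → ℤ) (N : ℕ) : 0 ≤ SS a N := sum_nonneg fun _ _ => bb_nonneg _ _

/-- the input in the form used below -/
def Inp (a : ℕ → ℤ) (V K d : ℝ) : Prop :=
  0 < V ∧ 0 ≤ K ∧ 0 < d ∧ d ≤ 1 / 2 ∧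
    ∀ y : ℝ, 0 < y → |SS a ⌊y⌋₊ - V * y| ≤ K * y ^ (1 - d)

theorem exists_inp (hB : B1 a) : ∃ V K d : ℝ, Inp a V K d := by
  obtain ⟨V, C, δ, hV, hδ, h⟩ := hB
  refine ⟨V, |C| + V, min δ (1 / 2), hV, by positivity, lt_min hδ (by norm_num), min_le_right _ _,
    fun y hy => ?_⟩
  have hd1 : min δ (1 / 2) ≤ δ := min_le_left _ _
  have hd2 : 0 < min δ (1 / 2) := lt_min hδ (by norm_num)
  have hd3 : min δ (1 / 2) ≤ 1 / 2 := min_le_right _ _
  set d := min δ (1 / 2)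
  have hp : 0 < y ^ (1 - d) := Real.rpow_pos_of_pos hy _
  rcases le_or_gt 1 y with h1 | h1
  · refine (h y h1).trans ?_
    have e1 : y ^ (1 - δ) ≤ y ^ (1 - d) := Real.rpow_le_rpow_of_exponent_le h1 (by linarith)
    have e0 : 0 < y ^ (1 - δ) := Real.rpow_pos_of_pos hy _
    calc C * y ^ (1 - δ) ≤ |C| * y ^ (1 - δ) := by
          apply mul_le_mul_of_nonneg_right (le_abs_self C) e0.le
      _ ≤ |C| * y ^ (1 - d) := by apply mul_le_mul_of_nonneg_left e1 (abs_nonneg _)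
      _ ≤ (|C| + V) * y ^ (1 - d) := by
          apply mul_le_mul_of_nonneg_right _ hp.le
          linarith
  · rw [Nat.floor_eq_zero.2 h1, SS_zero, zero_sub, abs_neg, abs_of_pos (by positivity)]
    have e1 : y ≤ y ^ (1 - d) := by
      conv_lhs => rw [← Real.rpow_one y]
      exact Real.rpow_le_rpow_of_exponent_ge hy h1.le (by linarith)
    calc V * y ≤ V * y ^ (1 - d) := mul_le_mul_of_nonneg_left e1 hV.le
      _ ≤ (|C| + V) * y ^ (1 - d) := by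
          apply mul_le_mul_of_nonneg_right _ hp.le
          linarith [abs_nonneg C]

variable {V K d : ℝ} (hi : Inp a V K d)
include hi

theorem SS_div {N q : ℕ} (hN : 1 ≤ N) (hq : 1 ≤ q) :
    |SS a (N / q) - V * (N / q)| ≤ K * ((N : ℝ) / q) ^ (1 - d) := by
  have hN0 : (0 : ℝ) < N := by exact_mod_cast hN
  have hq0 : (0 : ℝ) < q := by exact_mod_cast hq
  have h := hi.2.2.2.2 ((N : ℝ) / q) (by positivity)
  rwa [Nat.floor_div_eq_div] at h

theorem SS_le (N : ℕ) : SS a N ≤ (V + K) * N := by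
  rcases Nat.eq_zero_or_pos N with h0 | h0
  · rw [h0, SS_zero]; simp
  · have h := SS_div hi (N := N) (q := 1) h0 le_rfl
    rw [Nat.div_one, Nat.cast_one, div_one] at h
    have hN : (1 : ℝ) ≤ N := by exact_mod_cast h0
    have e1 : (N : ℝ) ^ (1 - d) ≤ N := by
      conv_rhs => rw [← Real.rpow_one (N : ℝ)]
      exact Real.rpow_le_rpow_of_exponent_le hN (by linarith [hi.2.2.1])
    have e2 := (abs_le.1 h).2
    have e3 := mul_le_mul_of_nonneg_left e1 hi.2.1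
    linarith

omit hi in
theorem log_sub_le {k N : ℕ} (hk : 1 ≤ k) (hkN : k ≤ N) :
    Real.log N - Real.log k ≤ ∑ j ∈ Ico k N, 1 / (j : ℝ) := by
  induction N, hkN using Nat.le_induction with
  | base => simp
  | succ n hn ih =>
    rw [Finset.sum_Ico_succ_top hn]
    have hn0 : (0 : ℝ) < n := by exact_mod_cast (by omega : 0 < n)
    have h1 : Real.log ((n + 1 : ℕ) : ℝ) - Real.log n ≤ 1 / n := by
      rw [← Real.log_div (by positivity) hn0.ne']
      have h2 := Real.log_le_sub_one_of_pos (x := ((n + 1 : ℕ) : ℝ) / n) (by positivity)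
      have h3 : ((n + 1 : ℕ) : ℝ) / n - 1 = 1 / n := by
        push_cast
        field_simp
        ring
      linarith
    linarith

/-- the sum of `b(k) log (N / k)` -/
theorem sum_log_div_le' (N : ℕ) :
    ∑ k ∈ Icc 1 N, bb a k * (Real.log N - Real.log k) ≤ (V + K) * N := by
  have h1 : ∑ k ∈ Icc 1 N, bb a k * (Real.log N - Real.log k)
      ≤ ∑ k ∈ Icc 1 N, ∑ j ∈ Ico k N, bb a k * (1 / (j : ℝ)) := by
    apply sum_le_sum
    intro k hk
    rw [mem_Icc] at hk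
    rw [← mul_sum]
    exact mul_le_mul_of_nonneg_left (log_sub_le hk.1 hk.2) (bb_nonneg _ _)
  have h2 : ∑ k ∈ Icc 1 N, ∑ j ∈ Ico k N, bb a k * (1 / (j : ℝ))
      = ∑ j ∈ Ico 1 N, ∑ k ∈ Icc 1 j, bb a k * (1 / (j : ℝ)) := by
    apply sum_comm'
    intro k j
    rw [mem_Icc, mem_Ico, mem_Ico, mem_Icc]
    omega
  have h3 : ∑ j ∈ Ico 1 N, ∑ k ∈ Icc 1 j, bb a k * (1 / (j : ℝ))
      ≤ ∑ j ∈ Ico 1 N, (V + K) := by
    apply sum_le_sum
    intro j hj
    rw [mem_Ico] at hj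
    have hj0 : (0 : ℝ) < j := by exact_mod_cast hj.1
    rw [← sum_mul, mul_one_div, div_le_iff₀ hj0]
    exact SS_le hi j
  have h4 : 0 ≤ V + K := add_nonneg hi.1.le hi.2.1
  rw [h2] at h1
  refine h1.trans (h3.trans ?_)
  rw [sum_const, Nat.card_Ico, nsmul_eq_mul, mul_comm]
  apply mul_le_mul_of_nonneg_left _ h4
  exact_mod_cast Nat.sub_le _ _

theorem E1 {N : ℕ} (hN : 1 ≤ N) :
    |∑ k ∈ Icc 1 N, bb a k * Real.log k - V * N * Real.log N| ≤ (K / d + (V + K)) * N := by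
  obtain ⟨hV, hK, hd, hd2, -⟩ := id hi
  have hN0 : (0 : ℝ) < N := by exact_mod_cast hN
  have hlog : 0 ≤ Real.log N := Real.log_nonneg (by exact_mod_cast hN)
  have h1 := sum_log_div_le' hi N
  have h0 : 0 ≤ ∑ k ∈ Icc 1 N, bb a k * (Real.log N - Real.log k) := by
    apply sum_nonneg
    intro k hk
    rw [mem_Icc] at hk
    apply mul_nonneg (bb_nonneg _ _)
    rw [sub_nonneg]
    exact Real.log_le_log (by exact_mod_cast hk.1) (by exact_mod_cast hk.2)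
  have h2 : ∑ k ∈ Icc 1 N, bb a k * (Real.log N - Real.log k)
      = SS a N * Real.log N - ∑ k ∈ Icc 1 N, bb a k * Real.log k := by
    rw [SS, sum_mul, ← sum_sub_distrib]
    exact sum_congr rfl fun k _ => by ring
  have h3 := SS_div hi (N := N) (q := 1) hN le_rfl
  rw [Nat.div_one, Nat.cast_one, div_one] at h3
  have h4 : |(SS a N - V * N) * Real.log N| ≤ K / d * N := by
    rw [abs_mul, abs_of_nonneg hlog]
    have h5 : Real.log N ≤ (N : ℝ) ^ d / d := Real.log_le_rpow_div hN0.le hd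
    calc |SS a N - V * N| * Real.log N ≤ (K * (N : ℝ) ^ (1 - d)) * ((N : ℝ) ^ d / d) :=
          mul_le_mul h3 h5 hlog (mul_nonneg hK (Real.rpow_nonneg hN0.le _))
      _ = K / d * ((N : ℝ) ^ (1 - d) * (N : ℝ) ^ d) := by ring
      _ = K / d * N := by rw [← Real.rpow_add hN0, sub_add_cancel, Real.rpow_one]
  rw [h2] at h1 h0
  have h6 := abs_le.1 h4
  have h7 : 0 ≤ K / d * N := by positivity
  rw [abs_le]
  constructor
  · nlinarith [h6.1, h6.2]
  · nlinarith [h6.1, h6.2]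

omit hi in
/-- Chebyshev -/
theorem cheb (N : ℕ) : ∑ p ∈ pr N, Real.log (p : ℝ) ≤ Real.log 4 * N := by
  have h := Chebyshev.theta_le_log4_mul_x (x := N) (by positivity)
  have h5 : Chebyshev.theta (N : ℝ) = ∑ p ∈ pr N, Real.log (p : ℝ) := by
    rw [Chebyshev.theta_eq_sum_Icc, Nat.floor_natCast]
    apply Finset.sum_congr
    · ext p
      rw [mem_pr]
      simp only [mem_filter, mem_Icc]
      constructor
      · rintro ⟨⟨_, h⟩, hp⟩; exact ⟨hp, h⟩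
      · rintro ⟨hp, h⟩; exact ⟨⟨Nat.zero_le _, h⟩, hp⟩
    · intros; rfl
  rw [← h5]; exact h

omit hi in
theorem rpow_le_sum {d : ℝ} (hd : 0 < d) (hd2 : d ≤ 1 / 2) {N p : ℕ} (hp : 1 ≤ p) (hpN : p ≤ N) :
    ((N : ℝ) / p) ^ (1 - d) ≤ 2 * ∑ j ∈ Icc 1 (N / p), (j : ℝ) ^ (-d) := by
  have hp0 : (0 : ℝ) < p := by exact_mod_cast hp
  have hN0 : (0 : ℝ) < N := by exact_mod_cast (by omega : 0 < N)
  have hJ : 1 ≤ N / p := (Nat.one_le_div_iff hp).2 hpN
  set J := N / p with hJd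
  have h1 : (N : ℝ) / p ≤ J + 1 := by
    have := Nat.lt_floor_add_one ((N : ℝ) / p)
    rw [Nat.floor_div_eq_div] at this
    exact this.le
  have hJ0 : (1 : ℝ) ≤ J := by exact_mod_cast hJ
  have h2 : ((N : ℝ) / p) ^ (1 - d) ≤ ((J : ℝ) + 1) ^ (1 - d) :=
    Real.rpow_le_rpow (by positivity) h1 (by linarith)
  have h3 : ((J : ℝ) + 1) ^ (1 - d) = (J + 1) * ((J : ℝ) + 1) ^ (-d) := by
    rw [sub_eq_add_neg, Real.rpow_add (by positivity), Real.rpow_one]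
  have h4 : (J : ℝ) * ((J : ℝ) + 1) ^ (-d) ≤ ∑ j ∈ Icc 1 J, (j : ℝ) ^ (-d) := by
    have : (J : ℝ) * ((J : ℝ) + 1) ^ (-d) = ∑ j ∈ Icc 1 J, ((J : ℝ) + 1) ^ (-d) := by
      rw [sum_const, Nat.card_Icc, nsmul_eq_mul]
      simp
    rw [this]
    apply sum_le_sum
    intro j hj
    rw [mem_Icc] at hj
    have hj0 : (0 : ℝ) < j := by exact_mod_cast hj.1
    have hjJ : (j : ℝ) ≤ J := by exact_mod_cast hj.2
    exact Real.rpow_le_rpow_of_nonpos hj0 (by linarith) (by linarith)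
  have h5 : 0 ≤ ((J : ℝ) + 1) ^ (-d) := Real.rpow_nonneg (by positivity) _
  nlinarith

omit hi in
theorem sum_rpow (hd : 0 < d) (hd2 : d ≤ 1 / 2) : ∃ K' : ℝ, 0 ≤ K' ∧ ∀ N : ℕ,
    ∑ p ∈ pr N, Real.log p * ((N : ℝ) / p) ^ (1 - d) ≤ K' * N := by
  have hs : Summable (fun n : ℕ => 1 / (n : ℝ) ^ (1 + d)) :=
    Real.summable_one_div_nat_rpow.mpr (by linarith)
  have hZ0 : 0 ≤ ∑' n : ℕ, 1 / (n : ℝ) ^ (1 + d) := tsum_nonneg fun n => by positivity
  have hl4 : 0 < Real.log 4 := Real.log_pos (by norm_num)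
  refine ⟨2 * (Real.log 4 * ∑' n : ℕ, 1 / (n : ℝ) ^ (1 + d)), by positivity, fun N => ?_⟩
  have h1 : ∑ p ∈ pr N, Real.log p * ((N : ℝ) / p) ^ (1 - d)
      ≤ ∑ p ∈ pr N, ∑ j ∈ Icc 1 (N / p), 2 * (Real.log p * (j : ℝ) ^ (-d)) := by
    apply sum_le_sum
    intro p hp
    rw [mem_pr] at hp
    have h2 := rpow_le_sum hd hd2 hp.1.one_lt.le hp.2
    have h3 : 0 ≤ Real.log p := Real.log_nonneg (by exact_mod_cast hp.1.one_lt.le)
    calc Real.log p * ((N : ℝ) / p) ^ (1 - d)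
        ≤ Real.log p * (2 * ∑ j ∈ Icc 1 (N / p), (j : ℝ) ^ (-d)) :=
          mul_le_mul_of_nonneg_left h2 h3
      _ = _ := by
          rw [mul_sum, mul_sum]
          exact sum_congr rfl fun j _ => by ring
  have h2 : ∑ p ∈ pr N, ∑ j ∈ Icc 1 (N / p), 2 * (Real.log p * (j : ℝ) ^ (-d))
      = ∑ j ∈ Icc 1 N, ∑ p ∈ pr (N / j), 2 * (Real.log p * (j : ℝ) ^ (-d)) := by
    apply sum_comm'
    intro p j
    rw [mem_pr, mem_pr, mem_Icc, mem_Icc]
    constructor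
    · rintro ⟨⟨hp, hpN⟩, hj1, hj2⟩
      rw [Nat.le_div_iff_mul_le hp.pos] at hj2
      refine ⟨⟨hp, ?_⟩, hj1, ?_⟩
      · rw [Nat.le_div_iff_mul_le hj1, mul_comm]; exact hj2
      · exact (Nat.le_mul_of_pos_right j hp.pos).trans hj2
    · rintro ⟨⟨hp, hpN⟩, hj1, hj2⟩
      rw [Nat.le_div_iff_mul_le hj1] at hpN
      refine ⟨⟨hp, ?_⟩, hj1, ?_⟩
      · exact (Nat.le_mul_of_pos_right p hj1).trans hpN
      · rw [Nat.le_div_iff_mul_le hp.pos, mul_comm]; exact hpN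
  have h3 : ∑ j ∈ Icc 1 N, ∑ p ∈ pr (N / j), 2 * (Real.log p * (j : ℝ) ^ (-d))
      ≤ ∑ j ∈ Icc 1 N, 2 * (Real.log 4 * N) * (1 / (j : ℝ) ^ (1 + d)) := by
    apply sum_le_sum
    intro j hj
    rw [mem_Icc] at hj
    have hj0 : (0 : ℝ) < j := by exact_mod_cast hj.1
    have h4 := cheb (N / j)
    have h5 : ((N / j : ℕ) : ℝ) ≤ (N : ℝ) / j := Nat.cast_div_le
    have h6 : 0 < (j : ℝ) ^ (-d) := Real.rpow_pos_of_pos hj0 _
    rw [← mul_sum, ← sum_mul]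
    have h7 : (j : ℝ) ^ (-d) / j = 1 / (j : ℝ) ^ (1 + d) := by
      rw [Real.rpow_add hj0, Real.rpow_one, Real.rpow_neg hj0.le]
      field_simp
    calc 2 * ((∑ p ∈ pr (N / j), Real.log (p : ℝ)) * (j : ℝ) ^ (-d))
        ≤ 2 * ((Real.log 4 * ((N : ℝ) / j)) * (j : ℝ) ^ (-d)) := by
          have := h4.trans (mul_le_mul_of_nonneg_left h5 hl4.le)
          have := mul_le_mul_of_nonneg_right this h6.le
          linarith
      _ = 2 * (Real.log 4 * N) * ((j : ℝ) ^ (-d) / j) := by ring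
      _ = _ := by rw [h7]
  rw [h2] at h1
  refine h1.trans (h3.trans ?_)
  rw [← mul_sum]
  have h8 : ∑ j ∈ Icc 1 N, 1 / (j : ℝ) ^ (1 + d) ≤ ∑' n : ℕ, 1 / (n : ℝ) ^ (1 + d) :=
    hs.sum_le_tsum _ fun n _ => by positivity
  calc 2 * (Real.log 4 * N) * ∑ j ∈ Icc 1 N, 1 / (j : ℝ) ^ (1 + d)
      ≤ 2 * (Real.log 4 * N) * ∑' n : ℕ, 1 / (n : ℝ) ^ (1 + d) :=
        mul_le_mul_of_nonneg_left h8 (by positivity)
    _ = _ := by ring

omit hi in
theorem geo {p : ℕ} (hp : 2 ≤ p) (N : ℕ) :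
    ∑ m ∈ Icc 2 N, 1 / (p : ℝ) ^ m ≤ 1 / (p * (p - 1)) := by
  have hp2 : (2 : ℝ) ≤ p := by exact_mod_cast hp
  have hp0 : (0 : ℝ) < p := by linarith
  have hp1 : (0 : ℝ) < p - 1 := by linarith
  rcases Nat.lt_or_ge N 1 with h | h
  · rw [Icc_eq_empty (by omega), sum_empty]
    positivity
  · have key : ∑ m ∈ Icc 2 N, 1 / (p : ℝ) ^ m + 1 / ((p : ℝ) ^ N * (p - 1)) = 1 / (p * (p - 1)) := by
      induction N, h using Nat.le_induction with
      | base => simp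
      | succ n hn ih =>
        rw [Finset.sum_Icc_succ_top (by omega), ← ih]
        have : 1 / (p : ℝ) ^ (n + 1) + 1 / ((p : ℝ) ^ (n + 1) * (p - 1))
            = 1 / ((p : ℝ) ^ n * (p - 1)) := by
          rw [pow_succ]
          field_simp
          ring
        linarith
    have : 0 ≤ 1 / ((p : ℝ) ^ N * (p - 1)) := by positivity
    linarith

end Vale.Agent.P004H.H361
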