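import Vale.Agent.P004H.H361.Est

/-!
# P004H, R14: the mean value of `λ(p)²` over the primes
-/

open Finset

namespace Vale.Agent.P004H.H361

open P004E.H185.Mer

variable {a : ℕ → ℤ} {V K d : ℝ} (hi : Inp a V K d)
include hi

/-- the terms with `m ≥ 2` -/
theorem high {N p : ℕ} (hp : 2 ≤ p) :
    ∑ m ∈ Icc 2 N, vv a p m ^ 2 * SS a (N / p ^ m) ≤ 4 * (V + K) * N * (1 / (p * (p - 1))) := by
  have hp2 : (2 : ℝ) ≤ p := by exact_mod_cast hp
  have hVK : 0 ≤ V + K := add_nonneg hi.1.le hi.2.1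
  have h1 : ∀ m ∈ Icc 2 N, vv a p m ^ 2 * SS a (N / p ^ m)
      ≤ 4 * (V + K) * N * (1 / (p : ℝ) ^ m) := by
    intro m _
    have h2 := SS_le hi (N / p ^ m)
    have h3 : ((N / p ^ m : ℕ) : ℝ) ≤ (N : ℝ) / ((p ^ m : ℕ) : ℝ) := Nat.cast_div_le
    have h4 := h2.trans (mul_le_mul_of_nonneg_left h3 hVK)
    have h5 := mul_le_mul (vv_sq_le a p m) h4 (SS_nonneg _ _) (by norm_num)
    refine h5.trans (le_of_eq ?_)
    push_cast
    ring
  refine (sum_le_sum h1).trans ?_
  rw [← mul_sum]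
  exact mul_le_mul_of_nonneg_left (geo hp N) (by positivity)

theorem split_m {N p : ℕ} (hN : 1 ≤ N) :
    ∑ m ∈ Icc 1 N, vv a p m ^ 2 * SS a (N / p ^ m)
      = vv a p 1 ^ 2 * SS a (N / p) + ∑ m ∈ Icc 2 N, vv a p m ^ 2 * SS a (N / p ^ m) := by
  have h : Icc 1 N = insert 1 (Icc 2 N) := by
    ext m
    rw [mem_insert, mem_Icc, mem_Icc]
    omega
  rw [h, sum_insert (by simp), pow_one]

/-- **the mean value of `λ(p)²`** -/
theorem mean (hr : Rel a) : ∃ C : ℝ, 0 ≤ C ∧ ∀ N : ℕ, 1 ≤ N →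
    |∑ p ∈ pr' N, vv a p 1 ^ 2 * (Real.log p / p) - Real.log N| ≤ C := by
  obtain ⟨hV, hK, hd, hd2, -⟩ := id hi
  obtain ⟨K', hK', h2⟩ := sum_rpow hd hd2
  obtain ⟨K'', hK'', h3⟩ := exists_bound_sum_log_div_sq
  have hVK : 0 ≤ V + K := add_nonneg hV.le hK
  refine ⟨(K / d + (V + K) + 4 * K * K' + 4 * (V + K) * K'') / V, by positivity, fun N hN => ?_⟩
  have hN0 : (0 : ℝ) < N := by exact_mod_cast hN
  have h1 := E1 hi hN
  rw [sum_id hr] at h1
  set X := ∑ p ∈ pr' N, Real.log p * ∑ m ∈ Icc 1 N, vv a p m ^ 2 * SS a (N / p ^ m) with hX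
  set Y := ∑ p ∈ pr' N, vv a p 1 ^ 2 * (Real.log p / p) with hY
  have hsub : pr' N ⊆ pr N := filter_subset _ _
  have e1 : X = ∑ p ∈ pr' N, Real.log p * (vv a p 1 ^ 2 * SS a (N / p))
      + ∑ p ∈ pr' N, Real.log p * ∑ m ∈ Icc 2 N, vv a p m ^ 2 * SS a (N / p ^ m) := by
    rw [hX, ← sum_add_distrib]
    exact sum_congr rfl fun p _ => by rw [split_m hi hN, mul_add]
  have e2 : |∑ p ∈ pr' N, Real.log p * (vv a p 1 ^ 2 * SS a (N / p)) - V * N * Y|
      ≤ 4 * K * K' * N := by
    have e3 : ∑ p ∈ pr' N, Real.log p * (vv a p 1 ^ 2 * SS a (N / p)) - V * N * Y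
        = ∑ p ∈ pr' N, Real.log p * vv a p 1 ^ 2 * (SS a (N / p) - V * (N / p)) := by
      rw [hY, mul_sum, ← sum_sub_distrib]
      exact sum_congr rfl fun p _ => by ring
    rw [e3]
    calc |∑ p ∈ pr' N, Real.log p * vv a p 1 ^ 2 * (SS a (N / p) - V * (N / p))|
        ≤ ∑ p ∈ pr' N, |Real.log p * vv a p 1 ^ 2 * (SS a (N / p) - V * (N / p))| :=
          abs_sum_le_sum_abs _ _
      _ ≤ ∑ p ∈ pr' N, 4 * K * (Real.log p * ((N : ℝ) / p) ^ (1 - d)) := by
          apply sum_le_sum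
          intro p hp
          rw [mem_pr'] at hp
          have hl : 0 ≤ Real.log p := Real.log_nonneg (by exact_mod_cast hp.1.one_lt.le)
          have h5 := SS_div hi (N := N) (q := p) hN hp.1.one_lt.le
          rw [abs_mul, abs_of_nonneg (mul_nonneg hl (sq_nonneg _))]
          have h6 : Real.log p * vv a p 1 ^ 2 ≤ Real.log p * 4 :=
            mul_le_mul_of_nonneg_left (vv_sq_le a p 1) hl
          have h7 := mul_le_mul h6 h5 (abs_nonneg _) (by positivity)
          refine h7.trans (le_of_eq (by ring))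
      _ = 4 * K * ∑ p ∈ pr' N, Real.log p * ((N : ℝ) / p) ^ (1 - d) := by rw [mul_sum]
      _ ≤ 4 * K * (K' * N) := by
          apply mul_le_mul_of_nonneg_left _ (by positivity)
          refine le_trans ?_ (h2 N)
          apply sum_le_sum_of_subset_of_nonneg hsub
          intro p hp _
          rw [mem_pr] at hp
          have hl : 0 ≤ Real.log p := Real.log_nonneg (by exact_mod_cast hp.1.one_lt.le)
          positivity
      _ = _ := by ring
  have e4 : |∑ p ∈ pr' N, Real.log p * ∑ m ∈ Icc 2 N, vv a p m ^ 2 * SS a (N / p ^ m)|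
      ≤ 4 * (V + K) * K'' * N := by
    rw [abs_of_nonneg]
    · calc ∑ p ∈ pr' N, Real.log p * ∑ m ∈ Icc 2 N, vv a p m ^ 2 * SS a (N / p ^ m)
          ≤ ∑ p ∈ pr' N, 4 * (V + K) * N * (Real.log p / (p * (p - 1))) := by
            apply sum_le_sum
            intro p hp
            rw [mem_pr'] at hp
            have hl : 0 ≤ Real.log p := Real.log_nonneg (by exact_mod_cast hp.1.one_lt.le)
            refine (mul_le_mul_of_nonneg_left (high hi (N := N) hp.1.two_le) hl).trans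
              (le_of_eq (by ring))
        _ = 4 * (V + K) * N * ∑ p ∈ pr' N, Real.log p / (p * (p - 1)) := by rw [mul_sum]
        _ ≤ 4 * (V + K) * N * K'' := by
            apply mul_le_mul_of_nonneg_left _ (by positivity)
            refine le_trans ?_ (h3 N)
            apply sum_le_sum_of_subset_of_nonneg hsub
            intro p hp _
            rw [mem_pr] at hp
            have hl : 0 ≤ Real.log p := Real.log_nonneg (by exact_mod_cast hp.1.one_lt.le)
            have hp2 : (2 : ℝ) ≤ p := by exact_mod_cast hp.1.two_le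
            have hp1 : (0 : ℝ) ≤ p - 1 := by linarith
            positivity
        _ = _ := by ring
    · apply sum_nonneg
      intro p hp
      rw [mem_pr'] at hp
      have hl : 0 ≤ Real.log p := Real.log_nonneg (by exact_mod_cast hp.1.one_lt.le)
      exact mul_nonneg hl (sum_nonneg fun m _ => mul_nonneg (sq_nonneg _) (SS_nonneg _ _))
  have e5 : |V * N * (Y - Real.log N)|
      ≤ (K / d + (V + K) + 4 * K * K' + 4 * (V + K) * K'') * N := by
    have h6 := abs_le.1 h1
    have h7 := abs_le.1 e2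
    have h8 := abs_le.1 e4
    rw [e1] at h6
    rw [abs_le]
    constructor
    · nlinarith [h6.1, h6.2, h7.1, h7.2, h8.1, h8.2]
    · nlinarith [h6.1, h6.2, h7.1, h7.2, h8.1, h8.2]
  rw [abs_mul, abs_of_pos (mul_pos hV hN0)] at e5
  rw [le_div_iff₀ hV]
  have e6 : (|Y - Real.log N| * V) * N
      ≤ (K / d + (V + K) + 4 * K * K' + 4 * (V + K) * K'') * N := by
    refine le_trans (le_of_eq (by ring)) e5
  exact le_of_mul_le_mul_right e6 hN0

end Vale.Agent.P004H.H361
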